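import Vale.Agent.P045.Bdl.B1

namespace Vale.Agent.Results.P045.RyserFalse

open Vale.Agent.P045

/-- **Ryser's conjecture is false**, already for intersecting hypergraphs and for arbitrarily
large `r`; moreover the trivial bound `τ ≤ r ν` is attained for `r = 127 ^ h + 635` and all `ν`. -/
theorem result :
    (∀ h : ℕ, 5 ≤ h → Nat.Coprime h 126 →
      ∃ (V : Type) (_ : Fintype V) (H : PartiteHypergraph (127 ^ h + 635) V),
        H.IsIntersecting ∧ H.matchingNumber = 1 ∧ H.coveringNumber = 127 ^ h + 635) ∧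
    (∀ h : ℕ, 5 ≤ h → Nat.Coprime h 126 → ∀ m : ℕ,
      ∃ (V : Type) (_ : Fintype V) (H : PartiteHypergraph (127 ^ h + 635) V),
        H.matchingNumber = m ∧ H.coveringNumber = (127 ^ h + 635) * m) ∧
    (∀ R : ℕ, ∃ r : ℕ, R ≤ r ∧ ∃ (V : Type) (_ : Fintype V) (H : PartiteHypergraph r V),
        H.IsIntersecting ∧ H.matchingNumber = 1 ∧ H.coveringNumber = r) ∧
    ¬ (∀ r : ℕ, 2 ≤ r → ∀ (V : Type) (_ : Fintype V) (H : PartiteHypergraph r V),
        H.IsIntersecting → H.coveringNumber ≤ r - 1) ∧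
    ¬ (∀ r : ℕ, 2 ≤ r → ∀ (V : Type) (_ : Fintype V) (H : PartiteHypergraph r V),
        H.coveringNumber ≤ (r - 1) * H.matchingNumber) :=
  P045.LS.final_of_dual P045.LS.dualCE_main

end Vale.Agent.Results.P045.RyserFalse
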